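import Mathlib
import Vale.Agent.P249.Embedding

/-!
For every `p ≥ 1` and `D > 1` there is `C` such that every `n`-point subset of every `L_p(μ)`
with aspect ratio at most `Φ` embeds with distortion `D` into `ℓ_p^d` for all
`d ≥ C Φ^(2p) log n`.
-/

namespace Vale.Agent.Results.P249.BoundedAspectReduction

open MeasureTheory Finset
open scoped ENNReal

variable {α : Type*} [MeasurableSpace α] {μ : Measure α} {p : ℝ}

/-- A finite family of simple functions in `L_p` lies isometrically in a finite `ℓ_p`. -/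
lemma simple_coords (hp : 1 ≤ p) [Fact (1 ≤ ENNReal.ofReal p)] {n : ℕ}
    (g : Fin n → SimpleFunc α ℝ) (hg : ∀ i, MemLp (g i) (ENNReal.ofReal p) μ) :
    ∃ (ι : Type) (_ : Fintype ι) (z : Fin n → ι → ℝ), ∀ i j,
      ∑ c, |z i c - z j c| ^ p = ‖(hg i).toLp _ - (hg j).toLp _‖ ^ p := by
  classical
  have hp0 : 0 < p := by linarith
  set F : α → (Fin n → ℝ) := fun a i => g i a with hF
  have hFm : Measurable F := measurable_pi_lambda _ fun i => (g i).measurable
  have hfin : (Set.range F).Finite :=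
    (Set.Finite.pi' fun i => (g i).finite_range).subset
      (by rintro _ ⟨a, rfl⟩ i; exact Set.mem_range_self a)
  set G : SimpleFunc α (Fin n → ℝ) :=
    ⟨F, fun v => hFm (measurableSet_singleton v), hfin⟩ with hG
  refine ⟨{v : Fin n → ℝ // v ∈ G.range}, inferInstance,
    fun i c => c.1 i * (μ.real (G ⁻¹' {c.1})) ^ (1 / p), fun i j => ?_⟩
  have hfinite : ∀ v : Fin n → ℝ, v i - v j ≠ 0 → μ (G ⁻¹' {v}) ≠ ∞ := by
    intro v hv
    have hv' : v i ≠ 0 ∨ v j ≠ 0 := by
      by_contra hc; push Not at hc; exact hv (by rw [hc.1, hc.2, sub_zero])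
    have hle : ∀ k, v k ≠ 0 → μ (G ⁻¹' {v}) ≠ ∞ := fun k hk =>
      ne_top_of_le_ne_top (SimpleFunc.measure_preimage_lt_top_of_memLp
        (ne_of_gt (ENNReal.ofReal_pos.2 hp0)) ENNReal.ofReal_ne_top (g k) (hg k) _ hk).ne
        (measure_mono fun a ha => by
          simp only [Set.mem_preimage, Set.mem_singleton_iff] at ha ⊢
          exact congrFun ha k)
    rcases hv' with h | h <;> exact hle _ h
  have key : ∫⁻ a, ENNReal.ofReal (|g i a - g j a| ^ p) ∂μ
      = ∑ v ∈ G.range, ENNReal.ofReal (|v i - v j| ^ p) * μ (G ⁻¹' {v}) := by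
    rw [← SimpleFunc.map_lintegral (fun v => ENNReal.ofReal (|v i - v j| ^ p)) G,
      ← SimpleFunc.lintegral_eq_lintegral]
    rfl
  have hnorm : ‖(hg i).toLp _ - (hg j).toLp _‖ ^ p
      = (∫⁻ a, ENNReal.ofReal (|g i a - g j a| ^ p) ∂μ).toReal := by
    rw [← MemLp.toLp_sub, Lp.norm_toLp,
      eLpNorm_eq_lintegral_rpow_enorm_toReal (ne_of_gt (ENNReal.ofReal_pos.2 hp0))
        ENNReal.ofReal_ne_top,
      ENNReal.toReal_ofReal hp0.le, ← ENNReal.toReal_rpow, ← Real.rpow_mul ENNReal.toReal_nonneg,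
      one_div_mul_cancel hp0.ne', Real.rpow_one]
    congr 1
    refine lintegral_congr fun a => ?_
    rw [Real.enorm_eq_ofReal_abs, ENNReal.ofReal_rpow_of_nonneg (abs_nonneg _) hp0.le]
    rfl
  rw [hnorm, key, ENNReal.toReal_sum]
  · rw [← Finset.sum_coe_sort G.range
      (fun v => (ENNReal.ofReal (|v i - v j| ^ p) * μ (G ⁻¹' {v})).toReal)]
    refine sum_congr rfl fun c _ => ?_
    rw [← sub_mul, abs_mul, Real.mul_rpow (abs_nonneg _) (abs_nonneg _),
      abs_of_nonneg (Real.rpow_nonneg measureReal_nonneg _),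
      ← Real.rpow_mul measureReal_nonneg, one_div_mul_cancel hp0.ne', Real.rpow_one,
      ENNReal.toReal_mul, ENNReal.toReal_ofReal (Real.rpow_nonneg (abs_nonneg _) p)]
    rfl
  · intro v _
    by_cases h : v i - v j = 0
    · simp [h, Real.zero_rpow hp0.ne']
    · exact ENNReal.mul_ne_top ENNReal.ofReal_ne_top (hfinite v h)

/-- Dimension reduction in `L_p` for sets of bounded aspect ratio: for all `p ≥ 1` and `D > 1`
there is `C` such that any `n ≥ 2` points of any `L_p(μ)` whose mutual distances lie in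
`[δ, Φ δ]` embed with distortion at most `D` into `ℓ_p^d` whenever `d ≥ C Φ^(2p) log n`. -/
theorem result : ∀ (p D : ℝ), 1 ≤ p → 1 < D → ∃ C : ℝ, 0 < C ∧
    ∀ {α : Type*} [MeasurableSpace α] (μ : Measure α) (n : ℕ), 2 ≤ n →
    ∀ (x : Fin n → Lp ℝ (ENNReal.ofReal p) μ) (Φ δ : ℝ), 0 < δ →
      (∀ i j, i ≠ j → δ ≤ dist (x i) (x j) ∧ dist (x i) (x j) ≤ Φ * δ) →
      ∀ d : ℕ, C * Φ ^ (2 * p) * Real.log n ≤ d →
      ∃ (f : Fin n → Fin d → ℝ) (s : ℝ), 0 < s ∧ ∀ i j,
        s * dist (x i) (x j) ≤ (∑ k, |f i k - f j k| ^ p) ^ (1 / p) ∧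
        (∑ k, |f i k - f j k| ^ p) ^ (1 / p) ≤ D * s * dist (x i) (x j) := by
  intro p D hp hD
  have hp0 : 0 < p := by linarith
  set r := Real.sqrt D with hr
  have hr1 : 1 < r := by rw [hr, Real.lt_sqrt zero_le_one]; linarith
  have hrr : r * r = D := Real.mul_self_sqrt (by linarith)
  obtain ⟨C₀, hC₀, hfin⟩ := Vale.Agent.P249.embed_finite hp (D := r ^ p)
    (Real.one_lt_rpow hr1 hp0)
  refine ⟨C₀ * (4:ℝ) ^ (2 * p), by positivity, ?_⟩
  intro α _ μ n hn x Φ δ hδ hx d hd
  have : Fact (1 ≤ ENNReal.ofReal p) := ⟨by simpa using hp⟩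
  have hΦ : 1 ≤ Φ := by
    obtain ⟨h1, h2⟩ := hx ⟨0, by omega⟩ ⟨1, by omega⟩ (by simp [Fin.ext_iff])
    nlinarith
  set η := min (δ / 4) (δ * (r - 1) / (4 * (r + 1))) with hη
  have hη0 : 0 < η := lt_min (by linarith)
    (div_pos (mul_pos hδ (by linarith)) (by linarith))
  have hη4 : η ≤ δ / 4 := min_le_left _ _
  have hηr : η * (4 * (r + 1)) ≤ δ * (r - 1) :=
    (le_div_iff₀ (by linarith)).1 (min_le_right _ _)
  have happrox : ∀ i, ∃ g : SimpleFunc α ℝ, ∃ hg : MemLp g (ENNReal.ofReal p) μ,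
      dist (x i) (hg.toLp _) ≤ η := by
    intro i
    obtain ⟨g, hg1, hg2⟩ := (Lp.memLp (x i)).exists_simpleFunc_eLpNorm_sub_lt
      ENNReal.ofReal_ne_top (ε := ENNReal.ofReal η) (by simpa using hη0)
    refine ⟨g, hg2, ?_⟩
    rw [Lp.dist_def]
    refine ENNReal.toReal_le_of_le_ofReal hη0.le (le_trans (le_of_eq ?_) hg1.le)
    exact eLpNorm_congr_ae (Filter.EventuallyEq.rfl.sub hg2.coeFn_toLp)
  choose g hg hclose using happrox
  obtain ⟨ι, hι, z, hz⟩ := simple_coords hp g hg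
  have hzd : ∀ i j, ∑ c, |z i c - z j c| ^ p
      = dist ((hg i).toLp _) ((hg j).toLp _) ^ p := fun i j => by rw [hz i j, dist_eq_norm]
  have hup : ∀ i j, dist ((hg i).toLp _) ((hg j).toLp _) ≤ dist (x i) (x j) + 2 * η := by
    intro i j
    have := dist_triangle4 ((hg i).toLp _) (x i) (x j) ((hg j).toLp _)
    have := hclose j
    have := hclose i
    rw [dist_comm ((hg i).toLp _) (x i)] at *
    linarith
  have hlo : ∀ i j, dist (x i) (x j) - 2 * η ≤ dist ((hg i).toLp _) ((hg j).toLp _) := by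
    intro i j
    have := dist_triangle4 (x i) ((hg i).toLp _) ((hg j).toLp _) (x j)
    have := hclose j
    have := hclose i
    rw [dist_comm ((hg j).toLp _) (x j)] at *
    linarith
  have hδ' : 0 < δ - 2 * η := by linarith
  obtain ⟨f, s, hs, hf⟩ := hfin ι n hn z (4 * Φ) (δ - 2 * η) hδ' (fun i j hij => by
      rw [hzd]
      refine ⟨Real.rpow_le_rpow hδ'.le (by linarith [hlo i j, (hx i j hij).1]) hp0.le,
        Real.rpow_le_rpow dist_nonneg ?_ hp0.le⟩
      have h1 := mul_le_mul_of_nonneg_left (by linarith : δ / 2 ≤ δ - 2 * η)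
        (by linarith : 0 ≤ 4 * Φ)
      have h2 := le_mul_of_one_le_left hδ.le hΦ
      linarith [hup i j, (hx i j hij).2]) (by linarith) d (by
      rw [Real.mul_rpow (by norm_num) (by linarith : 0 ≤ Φ), ← mul_assoc]
      exact hd)
  -- distances of the approximations, up to the factor `r`
  set q := (δ - 2 * η) / δ with hq
  have hq0 : 0 < q := div_pos hδ' hδ
  have hlo' : ∀ i j, q * dist (x i) (x j) ≤ dist ((hg i).toLp _) ((hg j).toLp _) := by
    intro i j
    rcases eq_or_ne i j with rfl | hij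
    · simp
    have h := hlo i j
    rw [hq, div_mul_eq_mul_div, div_le_iff₀ hδ]
    nlinarith [(hx i j hij).1]
  have hup' : ∀ i j, dist ((hg i).toLp _) ((hg j).toLp _) ≤ r * q * dist (x i) (x j) := by
    intro i j
    rcases eq_or_ne i j with rfl | hij
    · simp
    have h := hup i j
    have h1 : (δ + 2 * η) ≤ r * (δ - 2 * η) := by nlinarith
    have h2 := mul_le_mul_of_nonneg_left h1 (by linarith [(hx i j hij).1] :
      0 ≤ dist (x i) (x j))
    rw [hq, mul_div_assoc', div_mul_eq_mul_div, le_div_iff₀ hδ]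
    nlinarith [(hx i j hij).1]
  refine ⟨f, s ^ (1 / p) * q, by positivity, fun i j => ?_⟩
  have hroot : ∀ c e : ℝ, 0 ≤ c → 0 ≤ e → (c * e ^ p) ^ (1 / p) = c ^ (1 / p) * e := by
    intro c e hc he
    rw [Real.mul_rpow hc (Real.rpow_nonneg he p), ← Real.rpow_mul he,
      mul_one_div_cancel hp0.ne', Real.rpow_one]
  obtain ⟨hl, hu⟩ := hf i j
  rw [hzd] at hl hu
  constructor
  · calc s ^ (1 / p) * q * dist (x i) (x j)
        ≤ s ^ (1 / p) * dist ((hg i).toLp _) ((hg j).toLp _) := by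
          rw [mul_assoc]; gcongr; exact hlo' i j
      _ = (s * dist ((hg i).toLp _) ((hg j).toLp _) ^ p) ^ (1 / p) :=
          (hroot _ _ hs.le dist_nonneg).symm
      _ ≤ _ := by gcongr
  · calc (∑ k, |f i k - f j k| ^ p) ^ (1 / p)
        ≤ (r ^ p * s * dist ((hg i).toLp _) ((hg j).toLp _) ^ p) ^ (1 / p) := by gcongr
      _ = r * s ^ (1 / p) * dist ((hg i).toLp _) ((hg j).toLp _) := by
          rw [hroot _ _ (by positivity) dist_nonneg, Real.mul_rpow (by positivity) hs.le,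
            ← Real.rpow_mul (by linarith), mul_one_div_cancel hp0.ne', Real.rpow_one]
      _ ≤ r * s ^ (1 / p) * (r * q * dist (x i) (x j)) := by gcongr; exact hup' i j
      _ = _ := by rw [← hrr]; ring

end Vale.Agent.Results.P249.BoundedAspectReduction
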