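import Mathlib
import Vale.Agent.P249.LiftLp
import Vale.Agent.P249.Sharp.Final

/-!
Dimension reduction in `L_p` for `1 < p < ∞` at every distortion `D > 1`: dimension `C n^γ`
suffices for every `γ > 0`, so `d_p(n, D) = o(n)`.
-/

namespace Vale.Agent.Results.P249.SharpDimension

open MeasureTheory Finset Vale.Agent.P249
open scoped ENNReal

/-- For all `p > 1` and `D > 1`: `d_p(n, D) = O(n^γ)` for every `γ > 0`, and `d_p(n, D) = o(n)`. -/
theorem result : ∀ (p D : ℝ), 1 < p → 1 < D →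
    (∀ γ : ℝ, 0 < γ → ∃ C : ℝ, 0 < C ∧
      ∀ {α : Type*} [MeasurableSpace α] (μ : Measure α) (n : ℕ), 2 ≤ n →
      ∀ (x : Fin n → Lp ℝ (ENNReal.ofReal p) μ) (d : ℕ), C * (n:ℝ) ^ γ ≤ d →
        ∃ (f : Fin n → Fin d → ℝ) (s : ℝ), 0 < s ∧ ∀ i j,
          s * dist (x i) (x j) ≤ (∑ k, |f i k - f j k| ^ p) ^ (1 / p) ∧
          (∑ k, |f i k - f j k| ^ p) ^ (1 / p) ≤ D * s * dist (x i) (x j)) ∧
    (∀ c : ℝ, 0 < c → ∃ N : ℕ,
      ∀ {β : Type*} [MeasurableSpace β] (ν : Measure β) (n : ℕ), N ≤ n →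
      ∀ (x : Fin n → Lp ℝ (ENNReal.ofReal p) ν) (d : ℕ), c * (n:ℝ) ≤ d →
        ∃ (f : Fin n → Fin d → ℝ) (s : ℝ), 0 < s ∧ ∀ i j,
          s * dist (x i) (x j) ≤ (∑ k, |f i k - f j k| ^ p) ^ (1 / p) ∧
          (∑ k, |f i k - f j k| ^ p) ^ (1 / p) ≤ D * s * dist (x i) (x j)) := by
  intro p D hp hD
  have hD0 : 0 ≤ D := by linarith
  have hr : 1 < Real.sqrt D := by
    rw [← Real.sqrt_one]; exact Real.sqrt_lt_sqrt zero_le_one hD
  refine ⟨fun γ hγ => ?_, fun c hc => ?_⟩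
  · obtain ⟨C, hC, hemb⟩ := Sharp.embed_sharp hp hr hγ
    refine ⟨C, hC, fun {α} _ μ n hn x d hd => ?_⟩
    have h := lift_to_Lp hp.le hr (fun ι _ z => hemb ι n hn z d hd) μ x
    rwa [Real.mul_self_sqrt hD0] at h
  · obtain ⟨C, hC, hemb⟩ := Sharp.embed_sharp hp hr (show (0:ℝ) < 1 / 2 by norm_num)
    obtain ⟨M, hM⟩ := exists_nat_gt ((C / c) ^ 2)
    refine ⟨max 2 M, fun {β} _ ν n hn x d hd => ?_⟩
    have hn2 : 2 ≤ n := le_trans (le_max_left _ _) hn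
    have hnM : (M:ℝ) ≤ n := by exact_mod_cast le_trans (le_max_right _ _) hn
    have hroot : C / c ≤ (n:ℝ) ^ (1 / 2 : ℝ) := by
      rw [← Real.sqrt_eq_rpow]
      exact Real.le_sqrt_of_sq_le (by linarith)
    have hbound : C * (n:ℝ) ^ (1 / 2 : ℝ) ≤ d := by
      refine le_trans ?_ hd
      rw [div_le_iff₀ hc] at hroot
      refine (mul_le_mul_of_nonneg_right hroot (by positivity)).trans_eq ?_
      rw [mul_right_comm, ← Real.rpow_add (by exact_mod_cast (show 0 < n by omega))]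
      norm_num
      ring
    have h := lift_to_Lp hp.le hr (fun ι _ z => hemb ι n hn2 z d hbound) ν x
    rwa [Real.mul_self_sqrt hD0] at h

end Vale.Agent.Results.P249.SharpDimension
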