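import Mathlib
import Vale.Agent.P249.Lower.Main

/-!
For `p > 2` the dimension `d_p(n, D)` is not logarithmic.
-/

namespace Vale.Agent.Results.P249.SuperlogLowerBound

open MeasureTheory Filter
open scoped ENNReal

/-- For every `p > 2` and `D ≥ 1`: `d_p(n, D)` is at least a constant times
`(log n / log log n) ^ (p/2)`, so it is not `O(log n)`. -/
theorem result : ∀ p D : ℝ, 2 < p → 1 ≤ D →
    (∃ c : ℝ, 0 < c ∧ ∃ N : ℕ, ∀ n : ℕ, N ≤ n →
      ∃ (α : Type) (_ : MeasurableSpace α) (μ : Measure α)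
        (x : Fin n → Lp ℝ (ENNReal.ofReal p) μ), Function.Injective x ∧
        ∀ (d : ℕ) (f : Fin n → Fin d → ℝ) (s : ℝ), 0 < s →
          (∀ i j, s * dist (x i) (x j) ≤ (∑ k, |f i k - f j k| ^ p) ^ (1 / p) ∧
            (∑ k, |f i k - f j k| ^ p) ^ (1 / p) ≤ D * s * dist (x i) (x j)) →
          c * (Real.log n / Real.log (Real.log n)) ^ (p / 2) ≤ d) ∧
    (∀ C : ℝ, ∃ N : ℕ, ∀ n : ℕ, N ≤ n →
      ∃ (α : Type) (_ : MeasurableSpace α) (μ : Measure α)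
        (x : Fin n → Lp ℝ (ENNReal.ofReal p) μ), Function.Injective x ∧
        ∀ (d : ℕ) (f : Fin n → Fin d → ℝ) (s : ℝ), 0 < s →
          (∀ i j, s * dist (x i) (x j) ≤ (∑ k, |f i k - f j k| ^ p) ^ (1 / p) ∧
            (∑ k, |f i k - f j k| ^ p) ^ (1 / p) ≤ D * s * dist (x i) (x j)) →
          C * Real.log n < d) := by
  intro p D hp hD
  obtain ⟨c, hc, h⟩ := Vale.Agent.P249.Lower.hard_points hp hD
  refine ⟨⟨c, hc, eventually_atTop.1 h⟩, fun C => ?_⟩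
  obtain ⟨N, hN⟩ := eventually_atTop.1 (h.and (Vale.Agent.P249.Lower.beats_log hp hc C))
  refine ⟨N, fun n hn => ?_⟩
  obtain ⟨⟨α, mα, μ, x, hx, hd⟩, hlt⟩ := hN n hn
  exact ⟨α, mα, μ, x, hx, fun d f s hs hf => lt_of_lt_of_le hlt (hd d f s hs hf)⟩

end Vale.Agent.Results.P249.SuperlogLowerBound
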